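import Vale.Agent.P254.Orlicz.Moments

/-!
Berwald's second moment bound for a function whose `k`-th root is concave.
-/

open MeasureTheory Set

namespace Vale.Agent.P254.Full

open Vale.Agent.P254.Orlicz (ramp_zero ramp_one ramp_two integrable_of_bound)

theorem berwald {k : ℕ} (hk0 : k ≠ 0) {f : ℝ → ℝ} {A : ℝ} (hm : Measurable f)
    (hf_nn : ∀ x, 0 ≤ f x) (hanti : AntitoneOn f (Ici 0)) (hA : ∀ x, A < x → f x = 0)
    (hroot : ∀ x z u v t : ℝ, 0 ≤ x → 0 ≤ z → 0 < u → 0 < v → u ^ k ≤ f x → v ^ k ≤ f z →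
      0 < t → t < 1 → ((1 - t) * u + t * v) ^ k ≤ f ((1 - t) * x + t * z))
    (hV0 : 0 < ∫ x in Ioi (0:ℝ), f x) :
    (∫ x in Ioi (0:ℝ), x ^ 2 * f x) * (∫ x in Ioi (0:ℝ), f x) ≤
      2 * ((k:ℝ) + 2) / ((k:ℝ) + 3) * (∫ x in Ioi (0:ℝ), x * f x) ^ 2 := by
  have hb : ∀ j : ℕ, IntegrableOn (fun x => x ^ j * f x) (Ioi 0) := fun j => by
    refine integrable_of_bound (a := A) (C := A ^ j * f 0) ((measurable_id.pow_const j).mul hm)
      (fun x hx => by simp [hA x hx]) fun x hx => ?_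
    rw [abs_of_nonneg (mul_nonneg (pow_nonneg hx.1.le _) (hf_nn x))]
    exact mul_le_mul (pow_le_pow_left₀ hx.1.le hx.2 _)
      (hanti (mem_Ici.2 (le_refl (0:ℝ))) (mem_Ici.2 hx.1.le) hx.1.le) (hf_nn x)
      (pow_nonneg (hx.1.le.trans hx.2) _)
  have hfi : IntegrableOn f (Ioi 0) := by simpa using hb 0
  have hfxi : IntegrableOn (fun x => x * f x) (Ioi 0) := by simpa using hb 1
  have hfx2i : IntegrableOn (fun x => x ^ 2 * f x) (Ioi 0) := hb 2
  set V := ∫ x in Ioi (0:ℝ), f x with eV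
  set M1 := ∫ x in Ioi (0:ℝ), x * f x with eM
  have hM0 : 0 < M1 := by
    rcases (setIntegral_nonneg measurableSet_Ioi fun x (hx : x ∈ Ioi (0:ℝ)) =>
      mul_nonneg (le_of_lt hx) (hf_nn x)).eq_or_lt with h | h
    · exfalso
      have hz := (setIntegral_eq_zero_iff_of_nonneg_ae ?_ hfxi).1 h.symm
      · refine hV0.ne' (integral_eq_zero_of_ae ?_)
        filter_upwards [hz, ae_restrict_mem measurableSet_Ioi] with x hx hxm
        simp only [Pi.zero_apply, mul_eq_zero] at hx ⊢
        exact hx.resolve_left (ne_of_gt hxm)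
      · exact (ae_restrict_iff' measurableSet_Ioi).2 (Filter.Eventually.of_forall fun x hx =>
          mul_nonneg (le_of_lt hx) (hf_nn x))
    · exact h
  -- the comparison function
  set a : ℝ := ((k:ℝ) + 2) * M1 / V with ha
  have ha0 : 0 < a := by positivity
  set β : ℝ := (V * ((k:ℝ) + 1) / a) ^ ((k:ℕ):ℝ)⁻¹ with hβ
  have hβk : β ^ k = V * ((k:ℝ) + 1) / a :=
    Real.rpow_inv_natCast_pow (by positivity) hk0
  have hβ0 : 0 ≤ β := Real.rpow_nonneg (by positivity) _
  set l : ℝ → ℝ := fun x => β * max (1 - x / a) 0 with hl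
  set f0 : ℝ → ℝ := fun x => l x ^ k with hf0
  have hf0' : ∀ x, f0 x = β ^ k * (max (1 - x / a) 0) ^ k := fun x => by
    simp [hf0, hl, mul_pow]
  have i0 : ∫ x in Ioi (0:ℝ), f0 x = V := by
    simp only [hf0']
    rw [integral_const_mul, ramp_zero ha0 hk0, hβk]
    field_simp
  have i1 : ∫ x in Ioi (0:ℝ), x * f0 x = M1 := by
    simp only [hf0', mul_left_comm _ (β ^ k)]
    rw [integral_const_mul, ramp_one ha0 hk0, hβk, ha]
    field_simp
  have i2 : ∫ x in Ioi (0:ℝ), x ^ 2 * f0 x =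
      2 * ((k:ℝ) + 2) / ((k:ℝ) + 3) * M1 ^ 2 / V := by
    simp only [hf0', mul_left_comm _ (β ^ k)]
    rw [integral_const_mul, ramp_two ha0 hk0, hβk, ha]
    field_simp
  have hl_nn : ∀ x, 0 ≤ l x := fun x => mul_nonneg hβ0 (le_max_right _ _)
  have hlc : ConvexOn ℝ univ l := by
    have h1 : ConvexOn ℝ univ (fun x : ℝ => max (1 - x / a) 0) := by
      refine ConvexOn.sup ⟨convex_univ, fun x _ y _ s t _ _ hst => le_of_eq ?_⟩
        (convexOn_const 0 convex_univ)
      simp only [smul_eq_mul]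
      field_simp
      linear_combination (-a) * hst
    simpa [hl, smul_eq_mul, Pi.smul_apply] using h1.smul hβ0
  set D : Set ℝ := {x | 0 < x ∧ f0 x < f x} with hD
  have hconn : ∀ x y z, x ∈ D → z ∈ D → x < y → y < z → y ∈ D := by
    intro x y z hx hz hxy hyz
    refine ⟨hx.1.trans hxy, ?_⟩
    have hkn : ((k:ℕ):ℝ) ≠ 0 := by exact_mod_cast hk0
    have hroot' : ∀ w, f0 w < f w → ∃ a, 0 < a ∧ l w < a ∧ a ^ k = f w := by
      intro w hw
      have hpos : 0 < f w := lt_of_le_of_lt (pow_nonneg (hl_nn w) _) hw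
      refine ⟨f w ^ ((k:ℝ)⁻¹), Real.rpow_pos_of_pos hpos _, ?_,
        Real.rpow_inv_natCast_pow hpos.le hk0⟩
      have e : f0 w < (f w ^ ((k:ℝ)⁻¹)) ^ k := by rwa [Real.rpow_inv_natCast_pow hpos.le hk0]
      exact lt_of_pow_lt_pow_left₀ _ (Real.rpow_nonneg hpos.le _) e
    obtain ⟨u, hu0, hul, huk⟩ := hroot' x hx.2
    obtain ⟨v, hv0, hvl, hvk⟩ := hroot' z hz.2
    set t := (y - x) / (z - x) with ht
    have hzx : 0 < z - x := by linarith
    have ht0 : 0 < t := div_pos (by linarith) hzx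
    have ht1 : t < 1 := by rw [ht, div_lt_one hzx]; linarith
    have hy : (1 - t) * x + t * z = y := by rw [ht]; field_simp; ring
    have h1 := hlc.2 (mem_univ x) (mem_univ z) (sub_pos.2 ht1).le ht0.le (by ring)
    simp only [smul_eq_mul] at h1
    rw [hy] at h1
    have h2 := hroot x z u v t hx.1.le hz.1.le hu0 hv0 huk.le hvk.le ht0 ht1
    rw [hy] at h2
    refine lt_of_lt_of_le (pow_lt_pow_left₀ ?_ (hl_nn y) hk0) h2
    nlinarith [mul_lt_mul_of_pos_left hul (sub_pos.2 ht1), mul_lt_mul_of_pos_left hvl ht0]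
  have hf0i : IntegrableOn f0 (Ioi 0) := by
    refine integrable_of_bound (a := a) (C := β ^ k) (by fun_prop) (fun x hx => ?_) fun x hx => ?_
    · have : 1 - x / a ≤ 0 := by rw [sub_nonpos, le_div_iff₀ ha0]; linarith
      simp [hf0', max_eq_right this, zero_pow hk0]
    · rw [abs_of_nonneg (pow_nonneg (hl_nn x) _)]
      simp only [hl, mul_pow]
      refine mul_le_of_le_one_right (pow_nonneg hβ0 _) (pow_le_one₀ (le_max_right _ _) ?_)
      exact max_le (by have := div_nonneg hx.1.le ha0.le; linarith) zero_le_one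
  have hf0xi : ∀ j : ℕ, IntegrableOn (fun x => x ^ j * f0 x) (Ioi 0) := fun j => by
    refine integrable_of_bound (a := a) (C := a ^ j * β ^ k) (by fun_prop) (fun x hx => ?_)
      fun x hx => ?_
    · have : 1 - x / a ≤ 0 := by rw [sub_nonpos, le_div_iff₀ ha0]; linarith
      simp [hf0', max_eq_right this, zero_pow hk0]
    · rw [abs_of_nonneg (mul_nonneg (pow_nonneg hx.1.le _) (pow_nonneg (hl_nn x) _))]
      refine mul_le_mul (pow_le_pow_left₀ hx.1.le hx.2 _) ?_ (pow_nonneg (hl_nn x) _)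
        (pow_nonneg ha0.le _)
      simp only [hl, mul_pow]
      refine mul_le_of_le_one_right (pow_nonneg hβ0 _) (pow_le_one₀ (le_max_right _ _) ?_)
      exact max_le (by have := div_nonneg hx.1.le ha0.le; linarith) zero_le_one
  -- the certificate
  obtain ⟨p, q, hpq⟩ : ∃ p q : ℝ, ∀ x, 0 < x → x ≠ p → x ≠ q →
      0 ≤ (x - p) * (q - x) * (f x - f0 x) := by
    rcases D.eq_empty_or_nonempty with he | hne
    · refine ⟨0, 0, fun x hx _ _ => ?_⟩
      have hle : f x ≤ f0 x := by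
        by_contra hc
        exact (eq_empty_iff_forall_notMem.1 he x) ⟨hx, not_le.1 hc⟩
      nlinarith [mul_nonneg (sq_nonneg x) (sub_nonneg.2 hle)]
    · have hDb : BddAbove D := ⟨A, fun x hx => by
        by_contra hc
        have h2 := hx.2
        rw [hA x (not_le.1 hc)] at h2
        exact absurd h2 (not_lt.2 (pow_nonneg (hl_nn x) _))⟩
      have hDl : BddBelow D := ⟨0, fun x hx => hx.1.le⟩
      refine ⟨sInf D, sSup D, fun x hx hxp hxq => ?_⟩
      by_cases hxD : x ∈ D
      · exact mul_nonneg (mul_nonneg (sub_nonneg.2 (csInf_le hDl hxD))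
          (sub_nonneg.2 (le_csSup hDb hxD))) (sub_nonneg.2 hxD.2.le)
      · refine mul_nonneg_of_nonpos_of_nonpos ?_ (sub_nonpos.2 (not_lt.1 fun h => hxD ⟨hx, h⟩))
        rcases lt_or_ge x (sInf D) with h1 | h1
        · exact mul_nonpos_of_nonpos_of_nonneg (by linarith)
            (sub_nonneg.2 (le_trans h1.le ((csInf_le hDl hne.some_mem).trans (le_csSup hDb hne.some_mem))))
        · rcases lt_or_ge (sSup D) x with h2 | h2
          · exact mul_nonpos_of_nonneg_of_nonpos (by linarith) (by linarith)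
          · obtain ⟨u, hu, hux⟩ := exists_lt_of_csInf_lt hne (lt_of_le_of_ne h1 (Ne.symm hxp))
            obtain ⟨w, hw, hxw⟩ := exists_lt_of_lt_csSup hne (lt_of_le_of_ne h2 hxq)
            exact absurd (hconn u x w hu hw hux hxw) hxD
  have hI : 0 ≤ ∫ x in Ioi (0:ℝ), (x - p) * (q - x) * (f x - f0 x) := by
    refine integral_nonneg_of_ae ?_
    filter_upwards [ae_restrict_mem measurableSet_Ioi,
      ae_restrict_of_ae ((Set.toFinite {p, q}).countable.ae_notMem volume)] with x hx hne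
    simp only [mem_insert_iff, mem_singleton_iff, not_or] at hne
    exact hpq x hx hne.1 hne.2
  have hexp : ∀ x, (x - p) * (q - x) * (f x - f0 x) =
      (p + q) * (x * f x - x * f0 x) - p * q * (f x - f0 x) - (x ^ 2 * f x - x ^ 2 * f0 x) :=
    fun x => by ring
  simp only [hexp] at hI
  have j1 : IntegrableOn (fun x => x * f0 x) (Ioi 0) := by simpa using hf0xi 1
  have k1 : Integrable (fun x => x * f x - x * f0 x) (volume.restrict (Ioi 0)) := hfxi.sub j1
  have k0 : Integrable (fun x => f x - f0 x) (volume.restrict (Ioi 0)) := hfi.sub hf0i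
  have k2 : Integrable (fun x => x ^ 2 * f x - x ^ 2 * f0 x) (volume.restrict (Ioi 0)) :=
    hfx2i.sub (hf0xi 2)
  have k10 : Integrable (fun x => (p + q) * (x * f x - x * f0 x) - p * q * (f x - f0 x))
      (volume.restrict (Ioi 0)) := (k1.const_mul _).sub (k0.const_mul _)
  rw [integral_sub k10 k2, integral_sub (k1.const_mul _) (k0.const_mul _), integral_const_mul,
    integral_const_mul, integral_sub hfxi j1, integral_sub hfi hf0i,
    integral_sub hfx2i (hf0xi 2), ← eM, ← eV, i0, i1, i2] at hI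
  simp only [sub_self, mul_zero, zero_sub, neg_nonneg, sub_nonpos] at hI
  rw [le_div_iff₀ hV0] at hI
  refine hI.trans (le_of_eq ?_)
  ring

end Vale.Agent.P254.Full
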