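import Vale.Agent.P254.Sym.Final

/-!
Brunn's theorem for the sections of a convex downset: the `k`-th root of the section volume is
concave on its support.
-/

open MeasureTheory Set
open scoped ENNReal

namespace Vale.Agent.P254.Full

open Vale.Agent.P254.Sym

lemma volume_scaled {k : ℕ} {a : ℝ} (ha : 0 < a) (S : Set (Fin k → ℝ)) :
    volume ((fun z : Fin k → ℝ => a • z) ⁻¹' S) = ENNReal.ofReal ((a ^ k)⁻¹) * volume S := by
  rw [Measure.addHaar_preimage_smul _ ha.ne', Module.finrank_fin_fun,
    abs_of_nonneg (by positivity)]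

/-- Brunn-Minkowski for the slices, in the form of powers. -/
theorem root_concave {k : ℕ} {A : Set (Fin (k + 1) → ℝ)} (hA : Down A) {s t u v l : ℝ}
    (hu0 : 0 < u) (hv0 : 0 < v) (hu : u ^ k ≤ sect A s) (hv : v ^ k ≤ sect A t)
    (hl0 : 0 < l) (hl1 : l < 1) :
    ((1 - l) * u + l * v) ^ k ≤ sect A ((1 - l) * s + l * t) := by
  set r := (1 - l) * s + l * t with hr
  have h1l : 0 < 1 - l := sub_pos.2 hl1
  set c := (1 - l) * u + l * v with hc
  have hc0 : 0 < c := by positivity
  set μ := l * v / c with hμ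
  have hμ0 : 0 < μ := by positivity
  have hμ1 : 1 - μ = (1 - l) * u / c := by rw [hμ]; field_simp; rw [hc]; ring
  have hμ1' : 0 < 1 - μ := by rw [hμ1]; positivity
  have hsm : ∀ w, MeasurableSet (slice A w) := fun w =>
    (isCompact_slice hA.compact w).measurableSet
  have hfin : ∀ w, volume (slice A w) ≠ ⊤ := fun w =>
    (isCompact_slice hA.compact w).measure_lt_top.ne
  have hpm : ∀ (a w : ℝ), MeasurableSet ((fun z : Fin k → ℝ => a • z) ⁻¹' slice A w) :=
    fun a w => (measurable_const_smul a) (hsm w)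
  have key := pl_vol (a := 1 - μ) (b := μ) hμ1' hμ0 (by ring) k
    (f := ((fun z : Fin k → ℝ => u • z) ⁻¹' slice A s).indicator 1)
    (g := ((fun z : Fin k → ℝ => v • z) ⁻¹' slice A t).indicator 1)
    (h := ((fun z : Fin k → ℝ => c • z) ⁻¹' slice A r).indicator 1)
    (measurable_one.indicator (hpm u s)) (measurable_one.indicator (hpm v t))
    (measurable_one.indicator (hpm c r)) ?_
  · simp only [lintegral_indicator_one (hpm _ _), volume_scaled hu0, volume_scaled hv0,
      volume_scaled hc0] at key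
    have hone : ∀ (a w : ℝ), 0 < a → a ^ k ≤ sect A w →
        (1 : ℝ≥0∞) ≤ ENNReal.ofReal ((a ^ k)⁻¹) * volume (slice A w) := by
      intro a w ha hle
      rw [← ENNReal.ofReal_toReal (hfin w), ← ENNReal.ofReal_mul (by positivity),
        ENNReal.one_le_ofReal, ← div_eq_inv_mul, le_div_iff₀ (pow_pos ha k), one_mul]
      exact hle
    have h1 := mul_le_mul' (ENNReal.one_le_rpow (hone u s hu0 hu) hμ1')
      (ENNReal.one_le_rpow (hone v t hv0 hv) hμ0)
    rw [one_mul] at h1
    have h2 := h1.trans key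
    rw [← ENNReal.ofReal_toReal (hfin r), ← ENNReal.ofReal_mul (by positivity),
      ENNReal.one_le_ofReal, ← div_eq_inv_mul, le_div_iff₀ (pow_pos hc0 k), one_mul] at h2
    exact h2
  intro x y
  by_cases hx : x ∈ (fun z : Fin k → ℝ => u • z) ⁻¹' slice A s
  swap
  · simp [indicator_of_notMem hx, ENNReal.zero_rpow_of_pos hμ1']
  by_cases hy : y ∈ (fun z : Fin k → ℝ => v • z) ⁻¹' slice A t
  swap
  · simp [indicator_of_notMem hy, ENNReal.zero_rpow_of_pos hμ0]
  have hm : (1 - μ) • x + μ • y ∈ (fun z : Fin k → ℝ => c • z) ⁻¹' slice A r := by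
    have := hA.convex hx hy h1l.le hl0.le (by ring)
    show Fin.cons r (c • ((1 - μ) • x + μ • y)) ∈ A
    convert this using 1
    funext i
    refine Fin.cases ?_ (fun j => ?_) i
    · simp [r]
    · simp only [Fin.cons_succ, Pi.add_apply, Pi.smul_apply, smul_eq_mul]
      rw [hμ1, hμ]
      field_simp
  simp [indicator_of_mem hx, indicator_of_mem hy, indicator_of_mem hm]

end Vale.Agent.P254.Full
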