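import Vale.Agent.P254.Full.Product
import Vale.Agent.P254.Full.Root
import Vale.Agent.P254.Full.Berwald
import Vale.Agent.P254.Three.Affine
import Vale.Agent.P254.Orlicz.Main

/-!
Unconditional convex bodies which are symmetric in all coordinates but one: a sharp lower bound
on the volume, and comparison of the isotropic constant with that of the simplex.
-/

open MeasureTheory Set
open scoped Nat Matrix

namespace Vale.Agent.P254.Full

open Vale.Agent.P254.Sym

variable {n : ℕ}

/-- Invariance under the permutations of the coordinates which fix the coordinate `i`. -/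
def PermFix (A : Set (Fin n → ℝ)) (i : Fin n) : Prop :=
  ∀ σ : Equiv.Perm (Fin n), σ i = i → ∀ x ∈ A, (fun j => x (σ j)) ∈ A

lemma PermFix.slice {A : Set (Fin (n + 1) → ℝ)} {i : Fin (n + 1)} (h : PermFix A i) (t : ℝ) :
    Invariant (one n) (slAt A i t) := by
  intro σ _ z hz
  set τ : Equiv.Perm (Fin (n + 1)) := σ.extendDomain (finSuccAboveEquiv i) with hτ
  have h0 : τ i = i := Equiv.Perm.extendDomain_apply_not_subtype _ _ (by simp)
  have hs : ∀ j : Fin n, τ (i.succAbove j) = i.succAbove (σ j) := fun j =>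
    Equiv.Perm.extendDomain_apply_image σ (finSuccAboveEquiv i) j
  show Fin.insertNth i t (fun j => z (σ j)) ∈ A
  convert h τ h0 _ hz using 1
  refine funext ((Fin.forall_iff_succAbove i).2 ⟨?_, fun j => ?_⟩)
  · simp [h0]
  · simp [hs]

lemma PermFix.colour {A : Set (Fin n → ℝ)} {i : Fin n} (h : PermFix A i) :
    Invariant (fun j => decide (j = i)) A := fun σ hσ => h σ (by simpa using hσ i)

/-- The volume dominates the box on twice the barycentre. -/
theorem box_le {p : ℕ} {A : Set (Fin (p + 2) → ℝ)} (hA : Down A) {i : Fin (p + 2)}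
    (h : PermFix A i) : ∏ j, 2 * (∫ x in A, x j) ≤ volume.real A ^ (p + 3) := by
  have hsame : ∀ j, ∫ x in A, x (i.succAbove j) = ∫ x in A, x (i.succAbove 0) := fun j =>
    integral_perm (f := fun y => y) h.colour (by simp [Fin.succAbove_ne])
  rw [Fin.prod_univ_succAbove _ i]
  simp only [hsame, Finset.prod_const, Finset.card_univ, Fintype.card_fin]
  exact slice_step hA i fun t => product_le (slAt_down hA i t) (h.slice t) 0

/-- Berwald for one coordinate of a convex downset. -/
theorem second_moment_le {m : ℕ} {A : Set (Fin (m + 2) → ℝ)} (hA : Down A)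
    (hV : 0 < volume.real A) (i : Fin (m + 2)) :
    (∫ x in A, x i ^ 2) * volume.real A ≤
      2 * ((m:ℝ) + 3) / ((m:ℝ) + 4) * (∫ x in A, x i) ^ 2 := by
  obtain ⟨R, hg⟩ := hasMarg hasLogConcave hA i
  have hroot : ∀ x z u v t : ℝ, 0 ≤ x → 0 ≤ z → 0 < u → 0 < v →
      u ^ (m + 1) ≤ sectAt A i x → v ^ (m + 1) ≤ sectAt A i z → 0 < t → t < 1 →
      ((1 - t) * u + t * v) ^ (m + 1) ≤ sectAt A i ((1 - t) * x + t * z) := by
    intro x z u v t _ _ hu hv hx hz ht0 ht1
    have := root_concave (front_down hA i) (s := x) (t := z) hu hv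
      (by simpa only [sect, slice_front, sectAt] using hx)
      (by simpa only [sect, slice_front, sectAt] using hz) ht0 ht1
    simpa only [sect, slice_front, sectAt] using this
  have hU : ∫ x in Ioi (0:ℝ), sectAt A i x = volume.real A := mU_sect hA i
  have hM : ∫ x in Ioi (0:ℝ), x * sectAt A i x = ∫ y in A, y i := mM_sect hA i
  have hS : ∫ x in Ioi (0:ℝ), x ^ 2 * sectAt A i x = ∫ y in A, y i ^ 2 := mS_sect hA i
  have h := berwald (Nat.succ_ne_zero m) hg.meas hg.nonneg hg.anti hg.beyond hroot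
    (by rw [hU]; exact hV)
  rw [hU, hM, hS] at h
  refine h.trans (le_of_eq ?_)
  push_cast
  ring

variable {m : ℕ} {K : Set (Fin (m + 2) → ℝ)}

lemma pos_fix {i : Fin (m + 2)} (hf : PermFix K i) : PermFix (pos K) i := fun σ hσ x hx =>
  ⟨hf σ hσ x hx.1, fun _ => hx.2 _⟩

/-- The volume of a body dominates the product of four times its mean absolute coordinates. -/
theorem volume_bound (hK : Convex ℝ K) (hc : IsCompact K) (hi : (interior K).Nonempty)
    (hs : SignInvariant K) {i : Fin (m + 2)} (hf : PermFix K i) :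
    ∏ j, 4 * ((∫ x in K, |x j|) / volume.real K) ≤ volume.real K := by
  have hA := pos_down hK hc hs
  have hV := volume_pos hK hc hs hi
  have hvol := (cov_eq hK hc hs hV).1
  have h1 : ∀ j, ∫ x in K, |x j| = 2 ^ (m + 2) * ∫ x in pos K, x j := fun j =>
    integral_abs' hK hc hs (F := fun z => z j) (continuous_apply j)
  have e : ∀ j, 4 * ((∫ x in K, |x j|) / volume.real K) =
      2 * ((2 * ∫ x in pos K, x j) / volume.real (pos K)) := by
    intro j
    rw [h1, hvol]
    field_simp
    ring
  simp only [e]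
  rw [hvol, Finset.prod_mul_distrib, Finset.prod_const, Finset.prod_div_distrib, Finset.prod_const,
    Finset.card_univ, Fintype.card_fin]
  refine mul_le_mul_of_nonneg_left ?_ (by positivity)
  rw [div_le_iff₀ (by positivity), ← pow_succ']
  exact box_le hA (pos_fix hf)

/-- The isotropic constant is below that of the simplex. -/
theorem isoConst_lt (hK : Convex ℝ K) (hc : IsCompact K) (hi : (interior K).Nonempty)
    (hs : SignInvariant K) {i : Fin (m + 2)} (hf : PermFix K i) :
    isoConst K < isoConst (cornerSimplex (m + 2)) := by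
  have hA := pos_down hK hc hs
  have hV0 := volume_pos hK hc hs hi
  obtain ⟨hvol, hcov⟩ := cov_eq hK hc hs hV0
  have hp := box_le hA (pos_fix hf)
  rw [Orlicz.isoConst_simplex, isoConst, hcov, Matrix.det_diagonal, hvol]
  set V := volume.real (pos K) with hV
  set W : Fin (m + 2) → ℝ := fun j => ∫ y in pos K, y j ^ 2 with hW
  set N : Fin (m + 2) → ℝ := fun j => ∫ y in pos K, y j with hN
  have hW0 : ∀ j, 0 ≤ W j := fun j => integral_nonneg fun y => sq_nonneg _
  have hN0 : ∀ j, 0 ≤ N j := fun j =>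
    setIntegral_nonneg hA.measurable fun y hy => hA.nonneg y hy j
  set k : ℝ := 2 * ((m:ℝ) + 3) / ((m:ℝ) + 4) with hk
  have h1 : ∏ j, W j / V ≤ ∏ j, k * N j ^ 2 / V ^ 2 := by
    refine Finset.prod_le_prod (fun j _ => div_nonneg (hW0 j) hV0.le) fun j _ => ?_
    rw [div_le_div_iff₀ hV0 (pow_pos hV0 2)]
    calc W j * V ^ 2 = W j * V * V := by ring
      _ ≤ k * N j ^ 2 * V :=
        mul_le_mul_of_nonneg_right (second_moment_le hA hV0 j) hV0.le
  have h2 : ∏ j, k * N j ^ 2 / V ^ 2 ≤ (k / 4) ^ (m + 2) * V ^ 2 := by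
    rw [Finset.prod_div_distrib, Finset.prod_const, Finset.card_univ, Fintype.card_fin,
      div_le_iff₀ (by positivity)]
    have hsq := pow_le_pow_left₀
      (Finset.prod_nonneg fun j _ => mul_nonneg zero_le_two (hN0 j)) hp 2
    calc ∏ j, k * N j ^ 2 = ∏ j, k / 4 * (2 * N j) ^ 2 :=
          Finset.prod_congr rfl fun j _ => by ring
      _ = (k / 4) ^ (m + 2) * (∏ j, 2 * N j) ^ 2 := by
          rw [Finset.prod_mul_distrib, Finset.prod_const, Finset.prod_pow, Finset.card_univ,
            Fintype.card_fin]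
      _ ≤ (k / 4) ^ (m + 2) * (V ^ (m + 3)) ^ 2 :=
          mul_le_mul_of_nonneg_left hsq (by positivity)
      _ = _ := by rw [← pow_mul, ← pow_mul]; ring
  refine Real.rpow_lt_rpow (div_nonneg (Finset.prod_nonneg fun j _ => div_nonneg (hW0 j) hV0.le)
    (sq_nonneg _)) ?_ (by positivity)
  refine lt_of_le_of_lt (div_le_div_of_nonneg_right (h1.trans h2) (sq_nonneg _)) ?_
  have e : (k / 4) ^ (m + 2) * V ^ 2 / (2 ^ (m + 2) * V) ^ 2 =
      (((m:ℝ) + 3) / (8 * ((m:ℝ) + 4))) ^ (m + 2) := by
    rw [hk, mul_pow, ← pow_mul, mul_comm (m + 2) 2, pow_mul]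
    norm_num only
    field_simp
    simp only [← mul_pow, div_pow]
    field_simp
    simp only [← mul_pow]
    congr 1
    ring
  rw [e, div_pow, mul_pow, div_lt_div_iff₀ (by positivity) (by positivity)]
  calc ((m:ℝ) + 3) ^ (m + 2) * (((m:ℝ) + 3) ^ (m + 3) * ((m:ℝ) + 4) ^ (m + 2))
      = ((m:ℝ) + 3) ^ (2 * m + 5) * ((m:ℝ) + 4) ^ (m + 2) := by ring
    _ < 8 ^ (m + 2) * ((m + 2)! : ℝ) ^ 2 * ((m:ℝ) + 4) ^ (m + 2) :=
        mul_lt_mul_of_pos_right (Orlicz.fact_bound m) (by positivity)
    _ = _ := by ring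

end Vale.Agent.P254.Full
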