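import Vale.Agent.P254.Sym.Final
import Vale.Agent.P254.Orlicz.OneDim

/-!
The volume of a permutation-invariant convex downset dominates the box on twice its barycentre.
-/

open MeasureTheory Set

namespace Vale.Agent.P254.Full

open Vale.Agent.P254.Sym

/-- All coordinates in one class. -/
def one (n : ℕ) : Fin n → Unit := fun _ => ()

/-- The slice inequality: Chebyshev for a log-concave section function. -/
lemma slice_cube {g : ℝ → ℝ} {R : ℝ} (hg : Marg g R) :
    2 * mM g * (∫ x in Ioi (0:ℝ), g x ^ 2) ≤ mU g ^ 3 := by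
  have hQ := Orlicz.cube_ge (good_lev hg) young_id R
  rw [mU_eq hg, mM_eq hg] at hQ
  have hQe : Orlicz.Q (lev g R) (fun x => max x 0) R = ∫ x in Ioi (0:ℝ), g x ^ 2 :=
    setIntegral_congr_fun measurableSet_Ioi fun x hx => by rw [gfun_lev hg (le_of_lt hx)]
  rwa [hQe] at hQ

lemma integrable_marg_sq {g : ℝ → ℝ} {R : ℝ} (hg : Marg g R) :
    IntegrableOn (fun x => g x ^ 2) (Ioi 0) := by
  refine Orlicz.integrable_of_bound (a := R) (C := g 0 ^ 2) (hg.meas.pow_const 2)
    (fun x hx => by simp [hg.beyond x hx]) fun x hx => ?_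
  rw [abs_of_nonneg (sq_nonneg _)]
  exact pow_le_pow_left₀ (hg.nonneg _)
    (hg.anti (mem_Ici.2 (le_refl (0:ℝ))) (mem_Ici.2 hx.1.le) hx.1.le) 2

/-- Tangent line to the power function. -/
lemma tangent_pow {z c : ℝ} (hz : 0 ≤ z) (hc : 0 < c) (p : ℕ) :
    c ^ (p + 1) + ((p:ℝ) + 1) * c ^ p * (z - c) ≤ z ^ (p + 1) := by
  have h := one_add_mul_le_pow (show (-2:ℝ) ≤ z / c - 1 by
    have := div_nonneg hz hc.le; linarith) (p + 1)
  rw [add_sub_cancel, div_pow, le_div_iff₀ (pow_pos hc _)] at h
  refine le_trans (le_of_eq ?_) h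
  push_cast
  field_simp
  ring

/-- Jensen for the slices: from the bound on every slice to the bound on their averages. -/
lemma average_bound {g y : ℝ → ℝ} {p : ℕ} (hg0 : ∀ t, 0 ≤ g t) (hy0 : ∀ t, 0 ≤ y t)
    (hgi : IntegrableOn g (Ioi 0)) (hyi : IntegrableOn y (Ioi 0))
    (hg2 : IntegrableOn (fun t => g t ^ 2) (Ioi 0))
    (h : ∀ t, y t ^ (p + 1) ≤ g t ^ (p + 2)) :
    (∫ t in Ioi (0:ℝ), y t) ^ (p + 1) ≤
      (∫ t in Ioi (0:ℝ), g t) ^ p * ∫ t in Ioi (0:ℝ), g t ^ 2 := by
  set U := ∫ t in Ioi (0:ℝ), g t with hU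
  set Y := ∫ t in Ioi (0:ℝ), y t with hY
  have hQ0 : 0 ≤ ∫ t in Ioi (0:ℝ), g t ^ 2 := integral_nonneg fun t => sq_nonneg _
  have hU0 : 0 ≤ U := integral_nonneg fun t => hg0 t
  rcases (integral_nonneg (fun t => hy0 t) : 0 ≤ Y).eq_or_lt with h0 | hY0
  · rw [hY, ← h0, zero_pow (Nat.succ_ne_zero p)]
    positivity
  rcases hU0.eq_or_lt with h0 | hU0
  · exfalso
    have hz := (setIntegral_eq_zero_iff_of_nonneg_ae (Filter.Eventually.of_forall hg0) hgi).1 h0.symm
    refine hY0.ne' (integral_eq_zero_of_ae ?_)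
    filter_upwards [hz] with t ht
    have h1 := h t
    rw [ht, Pi.zero_apply, zero_pow (Nat.succ_ne_zero _)] at h1
    exact eq_zero_of_pow_eq_zero (le_antisymm h1 (pow_nonneg (hy0 t) _))
  set c := Y / U with hc
  have hc0 : 0 < c := div_pos hY0 hU0
  have hpt : ∀ t, -(p:ℝ) * c ^ (p + 1) * g t + ((p:ℝ) + 1) * c ^ p * y t ≤ g t ^ 2 := by
    intro t
    rcases (hg0 t).eq_or_lt with h0 | hgt
    · have h1 := h t
      rw [← h0, zero_pow (Nat.succ_ne_zero _)] at h1
      have : y t = 0 := eq_zero_of_pow_eq_zero (le_antisymm h1 (pow_nonneg (hy0 t) _))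
      simp [← h0, this]
    · have hz : (y t / g t) ^ (p + 1) ≤ g t := by
        rw [div_pow, div_le_iff₀ (pow_pos hgt _), ← pow_succ']
        exact h t
      have ht := (tangent_pow (div_nonneg (hy0 t) hgt.le) hc0 p).trans hz
      have hmul := mul_le_mul_of_nonneg_left ht hgt.le
      refine le_trans (le_of_eq ?_) (hmul.trans (le_of_eq (sq (g t)).symm))
      field_simp
      ring
  have hmono := setIntegral_mono_on
    ((hgi.const_mul (-(p:ℝ) * c ^ (p + 1))).add (hyi.const_mul (((p:ℝ) + 1) * c ^ p)))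
    hg2 measurableSet_Ioi fun t _ => hpt t
  rw [integral_add' (hgi.const_mul _) (hyi.const_mul _), integral_const_mul, integral_const_mul,
    ← hU, ← hY] at hmono
  calc Y ^ (p + 1) = U ^ p * (-(p:ℝ) * c ^ (p + 1) * U + ((p:ℝ) + 1) * c ^ p * Y) := by
        rw [hc, div_pow, div_pow]; field_simp; ring
    _ ≤ _ := mul_le_mul_of_nonneg_left hmono (pow_nonneg hU0.le _)

/-- Slicing along one coordinate: the bound on the slices gives it on the body. -/
lemma slice_step {p : ℕ} {A : Set (Fin (p + 2) → ℝ)} (hA : Down A) (i : Fin (p + 2))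
    (hb : ∀ t, (2 * ∫ z in slAt A i t, z 0) ^ (p + 1) ≤ sectAt A i t ^ (p + 2)) :
    2 * (∫ x in A, x i) * (2 * ∫ x in A, x (i.succAbove 0)) ^ (p + 1) ≤
      volume.real A ^ (p + 3) := by
  set V := volume.real A with hVdef
  have hV : 0 ≤ V := measureReal_nonneg
  have hM : 0 ≤ ∫ x in A, x i := setIntegral_nonneg hA.measurable fun x hx => hA.nonneg x hx i
  obtain ⟨R, hg⟩ := hasMarg hasLogConcave hA i
  set g := sectAt A i with hgdef
  have hU : mU g = V := mU_sect hA i
  have hcube := slice_cube hg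
  rw [hU, mM_sect hA i] at hcube
  set y : ℝ → ℝ := fun t => 2 * ∫ z in slAt A i t, z 0 with hy
  have hslice := slice_integral hA i (F := fun x => x (i.succAbove 0)) (continuous_apply _)
  simp only [Fin.insertNth_apply_succAbove] at hslice
  have hyi : IntegrableOn y (Ioi 0) := hslice.1.const_mul 2
  have hY : ∫ t in Ioi (0:ℝ), y t = 2 * ∫ x in A, x (i.succAbove 0) := by
    rw [hy, integral_const_mul, ← hslice.2]
  have hy0 : ∀ t, 0 ≤ y t := fun t => mul_nonneg zero_le_two
    (setIntegral_nonneg (slAt_down hA i t).measurable fun z hz => (slAt_down hA i t).nonneg z hz 0)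
  have key := average_bound hg.nonneg hy0 (integrable_marg hg) hyi (integrable_marg_sq hg) hb
  rw [hY, show (∫ t in Ioi (0:ℝ), g t) = V from hU] at key
  calc _ ≤ 2 * (∫ x in A, x i) * (V ^ p * ∫ t in Ioi (0:ℝ), g t ^ 2) :=
        mul_le_mul_of_nonneg_left key (by positivity)
    _ = V ^ p * (2 * (∫ x in A, x i) * ∫ t in Ioi (0:ℝ), g t ^ 2) := by ring
    _ ≤ V ^ p * V ^ 3 := mul_le_mul_of_nonneg_left hcube (by positivity)
    _ = V ^ (p + 3) := by ring

/-- For a permutation-invariant convex downset, `|A| ≥ (2 b)^n`, in cleared form. -/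
theorem product_le : ∀ {n : ℕ} {A : Set (Fin n → ℝ)}, Down A → Invariant (one n) A →
    ∀ i, (2 * ∫ x in A, x i) ^ n ≤ volume.real A ^ (n + 1) := by
  intro n
  induction n with
  | zero => exact fun _ _ i => i.elim0
  | succ n ih =>
    intro A hA h i
    have hsame : ∀ j, ∫ x in A, x j = ∫ x in A, x 0 := fun j =>
      integral_perm (i := j) (j := 0) h (f := fun y => y) rfl
    rw [hsame i]
    set V := volume.real A with hVdef
    set M := ∫ x in A, x 0 with hMdef
    have hV : 0 ≤ V := measureReal_nonneg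
    have hM : 0 ≤ M := setIntegral_nonneg hA.measurable fun x hx => hA.nonneg x hx 0
    obtain ⟨R, hg⟩ := hasMarg hasLogConcave hA 0
    set g := sectAt A 0 with hgdef
    have hU : mU g = V := mU_sect hA 0
    have hMg : mM g = M := mM_sect hA 0
    have hcube := slice_cube hg
    rw [hU, hMg] at hcube
    rcases n with _ | p
    · -- one coordinate: the section is an indicator
      have hg2 : ∀ t, g t ^ 2 = g t := by
        intro t
        have e : slAt A 0 t = ∅ ∨ slAt A 0 t = univ :=
          (slAt A 0 t).eq_empty_or_nonempty.imp id fun ⟨w, hw⟩ =>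
            eq_univ_of_forall fun z => Subsingleton.elim w z ▸ hw
        rcases e with e | e <;> simp [hgdef, sectAt, e, volume_pi, measureReal_def]
      have e : ∫ x in Ioi (0:ℝ), g x ^ 2 = V := by rw [← hU]; simp only [hg2]; rfl
      rw [e] at hcube
      rcases hV.eq_or_lt with h0 | h0
      · have : M = 0 := by
          have hz : volume.restrict A = 0 :=
            Measure.restrict_eq_zero.2 ((measureReal_eq_zero_iff hA.finite).1 h0.symm)
          simp [hMdef, hz]
        simp [this, ← h0]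
      · simp only [zero_add, pow_one]
        have h2 : 2 * M * V ≤ V ^ (1 + 1) * V := hcube.trans (le_of_eq (by ring))
        exact le_of_mul_le_mul_right h2 h0
    · have key := slice_step hA 0 fun t => ih (slAt_down hA 0 t) (invariant_slice h t) 0
      rw [hsame (Fin.succAbove 0 0), ← hMdef, ← hVdef] at key
      calc (2 * M) ^ (p + 2) = (2 * M) * (2 * M) ^ (p + 1) := by ring
        _ ≤ V ^ (p + 3) := key
        _ = V ^ (p + 2 + 1) := by ring

end Vale.Agent.P254.Full
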